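import Crest.Agent.Kac.Basic

/-! Block bound, part 1: geometry of the shifted grids. -/

set_option autoImplicit false
open MeasureTheory Filter Topology
open scoped ENNReal

namespace Crest.Agent.Kac

/-- One coordinate: at most one of the `n` shifts separates two reals at distance `< 1`. -/
theorem coord_sep {n : ℕ} (hn : 0 < n) {X Y : ℝ} (h : |X - Y| < 1) :
    ((Finset.range n).filter (fun m : ℕ => ⌊(X - m) / n⌋ ≠ ⌊(Y - m) / n⌋)).card ≤ 1 := by
  have key : ∀ X Y : ℝ, X ≤ Y → Y - X < 1 → ∀ m : ℕ, m < n →
      ⌊(X - m) / n⌋ ≠ ⌊(Y - m) / n⌋ → (m : ℤ) = ⌊Y⌋ % n := by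
    intro X Y hXY hlt m hm hne
    have hn' : (0 : ℝ) < n := by exact_mod_cast hn
    have hle : ⌊(X - m) / n⌋ ≤ ⌊(Y - m) / n⌋ := by
      apply Int.floor_le_floor
      gcongr
    have hlt' : ⌊(X - m) / n⌋ < ⌊(Y - m) / n⌋ := lt_of_le_of_ne hle hne
    set k := ⌊(Y - m) / n⌋ with hk
    have h1 : (X - m) / n < k := Int.floor_lt.mp hlt'
    have h2 : (k : ℝ) ≤ (Y - m) / n := Int.floor_le _
    rw [div_lt_iff₀ hn'] at h1
    rw [le_div_iff₀ hn'] at h2
    have h3 : ⌊Y⌋ = k * n + m := by
      rw [Int.floor_eq_iff]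
      push_cast
      constructor <;> linarith
    rw [h3]
    rw [Int.add_emod, Int.mul_emod_left, zero_add, Int.emod_emod_of_dvd _ (dvd_refl _)]
    rw [Int.emod_eq_of_lt (by positivity) (by exact_mod_cast hm)]
  rw [Finset.card_le_one]
  intro a ha b hb
  simp only [Finset.mem_filter, Finset.mem_range] at ha hb
  rw [abs_lt] at h
  rcases le_total X Y with hXY | hXY
  · have h1 := key X Y hXY (by linarith) a ha.1 ha.2
    have h2 := key X Y hXY (by linarith) b hb.1 hb.2
    have : (a : ℤ) = b := by rw [h1, h2]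
    exact_mod_cast this
  · have h1 := key Y X hXY (by linarith) a ha.1 (Ne.symm ha.2)
    have h2 := key Y X hXY (by linarith) b hb.1 (Ne.symm hb.2)
    have : (a : ℤ) = b := by rw [h1, h2]
    exact_mod_cast this

theorem coord_abs_le_dist (x y : Pt) (a : Fin 3) : |x a - y a| ≤ dist x y := by
  rw [dist_eq_norm]
  have := EuclideanSpace.norm_eq (x - y)
  have h1 := PiLp.norm_apply_le (x - y) a
  simpa using h1

/-- At most three of the `n` diagonal shifts separate two points at distance `< r`. -/
theorem sep_card {n : ℕ} (hn : 0 < n) {r : ℝ} (hr : 0 < r) {x y : Pt} (h : dist x y < r) :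
    ((Finset.range n).filter (fun m : ℕ => cell (m * r) (n * r) x ≠ cell (m * r) (n * r) y)).card
      ≤ 3 := by
  classical
  have hsub : (Finset.range n).filter
      (fun m : ℕ => cell (m * r) (n * r) x ≠ cell (m * r) (n * r) y) ⊆
      (Finset.univ : Finset (Fin 3)).biUnion (fun a => (Finset.range n).filter
        (fun m : ℕ => ⌊(x a / r - m) / n⌋ ≠ ⌊(y a / r - m) / n⌋)) := by
    intro m hm
    simp only [Finset.mem_filter, Finset.mem_range] at hm
    obtain ⟨hm1, hm2⟩ := hm
    have : ∃ a, cell (m * r) (n * r) x a ≠ cell (m * r) (n * r) y a := by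
      by_contra hcon
      push Not at hcon
      exact hm2 (funext hcon)
    obtain ⟨a, ha⟩ := this
    simp only [Finset.mem_biUnion, Finset.mem_univ, true_and, Finset.mem_filter, Finset.mem_range]
    refine ⟨a, hm1, ?_⟩
    have hn' : (0 : ℝ) < n := by exact_mod_cast hn
    have e : ∀ z : ℝ, (z - m * r) / (n * r) = (z / r - m) / n := by
      intro z; field_simp
    simpa [cell, e] using ha
  refine (Finset.card_le_card hsub).trans ?_
  refine Finset.card_biUnion_le.trans ?_
  calc ∑ a : Fin 3, _ ≤ ∑ a : Fin 3, 1 := by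
        apply Finset.sum_le_sum
        intro a _
        apply coord_sep hn
        rw [← sub_div, abs_div, abs_of_pos hr, div_lt_one hr]
        exact (coord_abs_le_dist x y a).trans_lt h
    _ = 3 := by simp

theorem same_nonneg (t ℓ : ℝ) (x y : Pt) : 0 ≤ same t ℓ x y := by
  unfold same; split_ifs <;> norm_num

theorem same_le_one (t ℓ : ℝ) (x y : Pt) : same t ℓ x y ≤ 1 := by
  unfold same; split_ifs <;> norm_num

theorem same_self (t ℓ : ℝ) (x : Pt) : same t ℓ x x = 1 := by
  unfold same; simp

/-- sum over the shifts of the indicator `same`. -/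
theorem sum_same_shift {n : ℕ} (hn : 0 < n) {r : ℝ} (hr : 0 < r) {x y : Pt} (h : dist x y < r) :
    (n : ℝ) - 3 ≤ ∑ m ∈ Finset.range n, same (m * r) (n * r) x y := by
  classical
  have h1 := sep_card hn hr h
  have h2 : ∑ m ∈ Finset.range n, same (m * r) (n * r) x y =
      ((Finset.range n).filter
        (fun m : ℕ => cell (m * r) (n * r) x = cell (m * r) (n * r) y)).card := by
    rw [Finset.card_filter]
    push_cast
    apply Finset.sum_congr rfl
    intro m _
    unfold same
    simp
  have h3 : ((Finset.range n).filter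
        (fun m : ℕ => cell (m * r) (n * r) x = cell (m * r) (n * r) y)).card +
      ((Finset.range n).filter
        (fun m : ℕ => cell (m * r) (n * r) x ≠ cell (m * r) (n * r) y)).card = n := by
    have := Finset.card_filter_add_card_filter_not (s := Finset.range n)
      (p := fun m : ℕ => cell (m * r) (n * r) x = cell (m * r) (n * r) y)
    simpa using this
  rw [h2]
  have : (n : ℝ) = (((Finset.range n).filter
        (fun m : ℕ => cell (m * r) (n * r) x = cell (m * r) (n * r) y)).card : ℝ) +
      (((Finset.range n).filter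
        (fun m : ℕ => cell (m * r) (n * r) x ≠ cell (m * r) (n * r) y)).card : ℝ) := by
    exact_mod_cast h3.symm
  have h4 : (((Finset.range n).filter
        (fun m : ℕ => cell (m * r) (n * r) x ≠ cell (m * r) (n * r) y)).card : ℝ) ≤ 3 := by
    exact_mod_cast h1
  linarith

/-- Some shift keeps a fraction `(n-3)/n` of the energy of a short range nonnegative potential. -/
theorem exists_shift {n : ℕ} (hn : 0 < n) {r : ℝ} (hr : 0 < r) {A : ℝ → ℝ}
    (hA0 : ∀ s, 0 ≤ s → 0 ≤ A s) (hA : ∀ s, r ≤ s → A s = 0) {N : ℕ} (x : Fin N → Pt) :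
    ∃ m ∈ Finset.range n, ((n : ℝ) - 3) * Eu (rad A) x ≤
      n * Eu (fun a b => same (m * r) (n * r) a b * rad A a b) x := by
  classical
  have hsum : ((n : ℝ) - 3) * Eu (rad A) x ≤
      ∑ m ∈ Finset.range n, Eu (fun a b => same (m * r) (n * r) a b * rad A a b) x := by
    simp only [Eu_eq]
    rw [← Finset.mul_sum, mul_left_comm]
    apply mul_le_mul_of_nonneg_left _ (by norm_num)
    rw [Finset.mul_sum, Finset.sum_comm]
    apply Finset.sum_le_sum
    intro i _
    rw [Finset.mul_sum, Finset.sum_comm]
    apply Finset.sum_le_sum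
    intro j _
    by_cases hij : i = j
    · simp [hij]
    · simp only [hij, if_false]
      rw [← Finset.sum_mul]
      by_cases hd : dist (x i) (x j) < r
      · apply mul_le_mul_of_nonneg_right (sum_same_shift hn hr hd)
        exact hA0 _ dist_nonneg
      · have : rad A (x i) (x j) = 0 := hA _ (not_lt.mp hd)
        rw [this]; simp
  by_contra hcon
  push Not at hcon
  have h2 : ∑ m ∈ Finset.range n, n * Eu (fun a b => same (m * r) (n * r) a b * rad A a b) x <
      ∑ m ∈ Finset.range n, ((n : ℝ) - 3) * Eu (rad A) x := by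
    apply Finset.sum_lt_sum_of_nonempty
    · exact Finset.nonempty_range_iff.mpr hn.ne'
    · exact hcon
  rw [← Finset.mul_sum, Finset.sum_const, Finset.card_range, nsmul_eq_mul] at h2
  have hn' : (0 : ℝ) < n := by exact_mod_cast hn
  have := mul_le_mul_of_nonneg_left hsum hn'.le
  linarith

end Crest.Agent.Kac
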