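import Crest.Agent.Kac.Thermo
import Crest.Agent.Kac.Block.Geom

/-! Block bound, part 2: factorisation over cells. -/

set_option autoImplicit false
open MeasureTheory Filter Topology
open scoped ENNReal

namespace Crest.Agent.Kac

theorem measurable_cell (t ℓ : ℝ) : Measurable (cell t ℓ) := by
  unfold cell
  apply measurable_pi_lambda
  intro a
  have hk : Continuous (fun x : Pt => (x a - t) / ℓ) := by fun_prop
  exact Int.measurable_floor.comp hk.measurable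

theorem measurable_same (t ℓ : ℝ) : Measurable (Function.uncurry (same t ℓ)) := by
  classical
  have hset : MeasurableSet {p : Pt × Pt | cell t ℓ p.1 = cell t ℓ p.2} :=
    measurableSet_eq_fun ((measurable_cell t ℓ).comp measurable_fst)
      ((measurable_cell t ℓ).comp measurable_snd)
  have : Function.uncurry (same t ℓ) = Set.indicator {p : Pt × Pt | cell t ℓ p.1 = cell t ℓ p.2}
      (fun _ => (1 : ℝ)) := by
    ext p
    simp only [Function.uncurry, same, Set.indicator, Set.mem_ofPred_eq]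
  rw [this]
  exact measurable_const.indicator hset

theorem goodPair_same_mul {w : ℝ → ℝ} (hw : Measurable w) (t ℓ : ℝ) :
    GoodPair (fun a b => same t ℓ a b * rad w a b) where
  symm := fun x y => by
    have h1 := (goodPair_rad hw).symm x y
    have h2 : same t ℓ x y = same t ℓ y x := by unfold same; simp [eq_comm]
    rw [h1, h2]
  meas := (measurable_same t ℓ).mul (goodPair_rad hw).meas

/-- The cell with index `k`. -/
def cellSet (t ℓ : ℝ) (k : Fin 3 → ℤ) : Set Pt := {x | cell t ℓ x = k}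

theorem measurableSet_cellSet (t ℓ : ℝ) (k : Fin 3 → ℤ) : MeasurableSet (cellSet t ℓ k) :=
  (measurable_cell t ℓ) (measurableSet_singleton k)

theorem cellSet_subset {t ℓ : ℝ} (hℓ : 0 < ℓ) (k : Fin 3 → ℤ) :
    cellSet t ℓ k ⊆ (fun x : Pt => (WithLp.toLp 2 (fun a => t + ℓ * k a) : Pt) + x) '' cube ℓ := by
  intro x hx
  refine ⟨x - (WithLp.toLp 2 (fun a => t + ℓ * k a) : Pt), ?_, by simp⟩
  intro a
  have h1 : ⌊(x a - t) / ℓ⌋ = k a := congrFun hx a
  rw [Int.floor_eq_iff] at h1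
  obtain ⟨h1, h2⟩ := h1
  rw [le_div_iff₀ hℓ] at h1
  rw [div_lt_iff₀ hℓ] at h2
  simp only [PiLp.sub_apply]
  constructor <;> nlinarith

theorem Xi_mono_set {u : Pt → Pt → ℝ} (ν : ℝ) {Λ Λ' : Set Pt} (h : Λ ⊆ Λ') :
    Xi u ν Λ ≤ Xi u ν Λ' := by
  unfold Xi
  apply ENNReal.tsum_le_tsum
  intro n
  gcongr
  exact Z_mono_set h n

theorem one_le_Xi (u : Pt → Pt → ℝ) (ν : ℝ) (Λ : Set Pt) : 1 ≤ Xi u ν Λ := by
  unfold Xi
  have := ENNReal.le_tsum (f := fun n : ℕ => ENNReal.ofReal (Real.exp (ν * n)) * Z u Λ n) 0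
  simpa [Z_zero] using this

theorem Z_congr_on {u u' : Pt → Pt → ℝ} {Λ : Set Pt} (hΛ : MeasurableSet Λ)
    (h : ∀ x ∈ Λ, ∀ y ∈ Λ, u x y = u' x y) (n : ℕ) : Z u Λ n = Z u' Λ n := by
  unfold Z
  congr 1
  apply setLIntegral_congr_fun (measurableSet_box hΛ)
  intro x hx
  unfold bw
  rw [Eu_congr (u := u) (u' := u') (x := x) (x' := x)]
  intro i j _
  exact h _ (hx i (Set.mem_univ i)) _ (hx j (Set.mem_univ j))

theorem Xi_congr_on {u u' : Pt → Pt → ℝ} {Λ : Set Pt} (hΛ : MeasurableSet Λ)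
    (h : ∀ x ∈ Λ, ∀ y ∈ Λ, u x y = u' x y) (ν : ℝ) : Xi u ν Λ = Xi u' ν Λ := by
  unfold Xi
  congr 1
  ext n
  rw [Z_congr_on hΛ h n]

/-- Index set of the cells meeting the cube. -/
noncomputable def cellIdx (t ℓ L : ℝ) : Finset (Fin 3 → ℤ) :=
  Fintype.piFinset (fun _ => Finset.Icc ⌊(0 - t) / ℓ⌋ ⌊(L - t) / ℓ⌋)

theorem cube_subset_cells {t ℓ L : ℝ} (hℓ : 0 < ℓ) :
    cube L ⊆ ⋃ k ∈ cellIdx t ℓ L, cellSet t ℓ k := by
  intro x hx
  rw [Set.mem_iUnion₂]
  refine ⟨cell t ℓ x, ?_, rfl⟩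
  unfold cellIdx
  rw [Fintype.mem_piFinset]
  intro a
  rw [Finset.mem_Icc]
  unfold cell
  constructor
  · apply Int.floor_le_floor
    have := (hx a).1
    gcongr
  · apply Int.floor_le_floor
    have := (hx a).2
    gcongr

theorem card_cellIdx {t ℓ L : ℝ} (hℓ : 0 < ℓ) (hL : 0 ≤ L) :
    ((cellIdx t ℓ L).card : ℝ) ≤ (L / ℓ + 2) ^ 3 := by
  unfold cellIdx
  rw [Fintype.card_piFinset, Finset.prod_const, Finset.card_univ, Fintype.card_fin, Int.card_Icc]
  push_cast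
  have h1 : ⌊(0 - t) / ℓ⌋ ≤ ⌊(L - t) / ℓ⌋ := by
    apply Int.floor_le_floor
    gcongr
  have h2 : (((⌊(L - t) / ℓ⌋ + 1 - ⌊(0 - t) / ℓ⌋).toNat : ℕ) : ℝ) =
      ((⌊(L - t) / ℓ⌋ + 1 - ⌊(0 - t) / ℓ⌋ : ℤ) : ℝ) := by
    have : (((⌊(L - t) / ℓ⌋ + 1 - ⌊(0 - t) / ℓ⌋).toNat : ℕ) : ℤ) =
      (⌊(L - t) / ℓ⌋ + 1 - ⌊(0 - t) / ℓ⌋ : ℤ) := Int.toNat_of_nonneg (by omega)
    exact_mod_cast this
  rw [h2]
  push_cast
  have h3 := Int.floor_le ((L - t) / ℓ)
  have h4 := Int.sub_one_lt_floor ((0 - t) / ℓ)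
  have h5 : (L - t) / ℓ - (0 - t) / ℓ = L / ℓ := by ring
  have h6 : (⌊(0 - t) / ℓ⌋ : ℝ) ≤ ⌊(L - t) / ℓ⌋ := by exact_mod_cast h1
  apply pow_le_pow_left₀ <;> linarith

theorem Xi_cells {w : ℝ → ℝ} (hw : Measurable w) {t ℓ : ℝ} (hℓ : 0 < ℓ) (ν : ℝ) (L : ℝ) :
    Xi (fun a b => same t ℓ a b * rad w a b) ν (cube L) ≤
      (Xi (rad w) ν (cube ℓ)) ^ (cellIdx t ℓ L).card := by
  classical
  refine (Xi_mono_set ν (cube_subset_cells (t := t) hℓ)).trans ?_
  rw [Xi_biUnion_eq (goodPair_same_mul hw t ℓ) ν (cellIdx t ℓ L) (cellSet t ℓ)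
    (fun k _ => measurableSet_cellSet t ℓ k)]
  · rw [← Finset.prod_const]
    apply Finset.prod_le_prod'
    intro k _
    rw [Xi_congr_on (u' := rad w) (measurableSet_cellSet t ℓ k)]
    · refine (Xi_mono_set ν (cellSet_subset hℓ k)).trans ?_
      unfold Xi
      apply le_of_eq
      congr 1
      ext n
      rw [Z_translate]
    · intro x hx y hy
      have : same t ℓ x y = 1 := by
        have : cell t ℓ x = cell t ℓ y := by rw [show cell t ℓ x = k from hx, show cell t ℓ y = k from hy]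
        simp [same, this]
      rw [this, one_mul]
  · intro i _ j _ hij
    rw [Set.disjoint_left]
    intro x hx hx'
    exact hij ((show cell t ℓ x = i from hx).symm.trans hx')
  · intro i _ j _ hij x hx y hy
    have : same t ℓ x y = 0 := by
      have : cell t ℓ x ≠ cell t ℓ y := by
        rw [show cell t ℓ x = i from hx, show cell t ℓ y = j from hy]; exact hij
      simp [same, this]
    rw [this, zero_mul]

end Crest.Agent.Kac
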