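import Crest.Agent.Kac.Block.Main

/-! Block bound, part 4: estimates in one block. -/

set_option autoImplicit false
open MeasureTheory Filter Topology
open scoped ENNReal

namespace Crest.Agent.Kac

theorem Eu_const (c : ℝ) {m : ℕ} (x : Fin m → Pt) :
    Eu (fun _ _ => c) x = c * ((m : ℝ) ^ 2 - m) / 2 := by
  rw [Eu_eq_sub]
  simp
  ring

theorem Eu_nonneg {ι : Type} [Fintype ι] {A : ℝ → ℝ} (hA0 : ∀ s, 0 ≤ s → 0 ≤ A s)
    (x : ι → Pt) : 0 ≤ Eu (rad A) x := by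
  have h := Eu_mono (u := rad (fun _ => 0)) (u' := rad A) x
    (fun i j _ => hA0 _ dist_nonneg)
  have h0 : Eu (rad (fun _ => 0)) x = 0 := by
    rw [Eu_eq_sub]; simp [rad]
  linarith

theorem Eu_w (φ0 A : ℝ → ℝ) (β κ g : ℝ) {m : ℕ} (x : Fin m → Pt) :
    Eu (rad (fun s => β * φ0 s - β * κ * A s - g)) x =
      β * Eu (rad φ0) x - β * κ * Eu (rad A) x - g * ((m : ℝ) ^ 2 - m) / 2 := by
  have e1 : Eu (rad (fun s => β * φ0 s - β * κ * A s - g)) x =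
      β * Eu (rad φ0) x + (-(β * κ)) * Eu (rad A) x + Eu (fun _ _ => -g) x := by
    rw [← Eu_smul, ← Eu_smul, ← Eu_add, ← Eu_add]
    congr 1
    funext a b
    simp only [rad]
    ring
  rw [e1, Eu_const]
  ring

/-- The exponent in the crude bound. -/
theorem crude_energy {φ0 A : ℝ → ℝ} {β κ g ν νb b2 B D ℓ : ℝ} (hβ : 0 ≤ β) (hβ2 : β ≤ b2)
    (hν : |ν| ≤ νb) (hB : 0 ≤ B) (hκ : κ ≤ 2) (hg : g ≤ 2 * (β * D / ℓ ^ 3))
    (hA0 : ∀ s, 0 ≤ s → 0 ≤ A s) {m : ℕ} (x : Fin m → Pt)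
    (hsup : D * (m : ℝ) ^ 2 / ℓ ^ 3 - B * m ≤ Eu (rad φ0) x - 2 * Eu (rad A) x) :
    -(Eu (rad (fun s => β * φ0 s - β * κ * A s - g)) x) + (ν + g / 2) * m ≤
      (νb + b2 * B) * m := by
  rw [Eu_w]
  have hE := Eu_nonneg hA0 x
  have h1 : D * (m : ℝ) ^ 2 / ℓ ^ 3 - B * m ≤ Eu (rad φ0) x - κ * Eu (rad A) x := by
    nlinarith
  have h2 := mul_le_mul_of_nonneg_left h1 hβ
  have hm : (0 : ℝ) ≤ m := by positivity
  have h3 : ν * m ≤ νb * m := mul_le_mul_of_nonneg_right ((le_abs_self ν).trans hν) hm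
  have h4 : β * B * m ≤ b2 * B * m := by
    apply mul_le_mul_of_nonneg_right _ hm
    exact mul_le_mul_of_nonneg_right hβ2 hB
  have h5 : g / 2 * (m : ℝ) ^ 2 ≤ (β * D / ℓ ^ 3) * (m : ℝ) ^ 2 := by
    apply mul_le_mul_of_nonneg_right _ (by positivity)
    linarith
  have e : β * (D * (m : ℝ) ^ 2 / ℓ ^ 3 - B * m) = (β * D / ℓ ^ 3) * (m : ℝ) ^ 2 - β * B * m := by
    ring
  rw [e] at h2
  linarith

theorem Z_free_cube {ℓ : ℝ} (hℓ : 0 < ℓ) (m : ℕ) :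
    Z (fun _ _ => 0) (cube ℓ) m = ENNReal.ofReal ((ℓ ^ 3) ^ m / m.factorial) := by
  rw [Z_free, volume_cube hℓ.le, ← ENNReal.ofReal_pow (by positivity),
    ENNReal.ofReal_div_of_pos (by positivity), ENNReal.ofReal_natCast, ENNReal.div_eq_inv_mul]

theorem crude_term {φ0 A : ℝ → ℝ} {β κ g ν νb b2 B D ℓ : ℝ} (hβ : 0 ≤ β) (hβ2 : β ≤ b2)
    (hν : |ν| ≤ νb) (hB : 0 ≤ B) (hκ : κ ≤ 2) (hg : g ≤ 2 * (β * D / ℓ ^ 3)) (hℓ : 0 < ℓ)
    (hA0 : ∀ s, 0 ≤ s → 0 ≤ A s)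
    (hsup : ∀ (N : ℕ) (x : Fin N → Pt), (∀ i, x i ∈ cube ℓ) →
          D * (N : ℝ) ^ 2 / ℓ ^ 3 - B * N ≤ Eu (rad φ0) x - 2 * Eu (rad A) x) (m : ℕ) :
    ENNReal.ofReal (Real.exp ((ν + g / 2) * m)) *
      Z (rad (fun s => β * φ0 s - β * κ * A s - g)) (cube ℓ) m ≤
      ENNReal.ofReal (Real.exp ((νb + b2 * B) * m) * ((ℓ ^ 3) ^ m / m.factorial)) := by
  have h1 := Z_le_of_energy (u := rad (fun s => β * φ0 s - β * κ * A s - g))
    (u' := fun _ _ => 0) (measurableSet_cube ℓ) (n := m)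
    (c := (νb + b2 * B) * m - (ν + g / 2) * m) (by
      intro x hx
      have := crude_energy hβ hβ2 hν hB hκ hg hA0 x (hsup m x hx)
      have h0 : Eu (fun _ _ => 0) x = 0 := by rw [Eu_const]; simp
      rw [h0]
      linarith)
  calc _ ≤ ENNReal.ofReal (Real.exp ((ν + g / 2) * m)) *
        (ENNReal.ofReal (Real.exp ((νb + b2 * B) * m - (ν + g / 2) * m)) *
          Z (fun _ _ => 0) (cube ℓ) m) := by gcongr
    _ = _ := by
      rw [← mul_assoc, ← ENNReal.ofReal_mul (Real.exp_pos _).le, ← Real.exp_add, Z_free_cube hℓ,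
        ← ENNReal.ofReal_mul (Real.exp_pos _).le]
      congr 3
      ring_nf

/-- Crude bound of the block grand partition function. -/
theorem crude_Xi {φ0 A : ℝ → ℝ} {β κ g ν νb b2 B D ℓ : ℝ} (hβ : 0 ≤ β) (hβ2 : β ≤ b2)
    (hν : |ν| ≤ νb) (hB : 0 ≤ B) (hκ : κ ≤ 2) (hg : g ≤ 2 * (β * D / ℓ ^ 3)) (hℓ : 0 < ℓ)
    (hA0 : ∀ s, 0 ≤ s → 0 ≤ A s)
    (hsup : ∀ (N : ℕ) (x : Fin N → Pt), (∀ i, x i ∈ cube ℓ) →
          D * (N : ℝ) ^ 2 / ℓ ^ 3 - B * N ≤ Eu (rad φ0) x - 2 * Eu (rad A) x) :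
    Xi (rad (fun s => β * φ0 s - β * κ * A s - g)) (ν + g / 2) (cube ℓ) ≤
      ENNReal.ofReal (Real.exp (Real.exp (νb + b2 * B) * ℓ ^ 3)) := by
  unfold Xi
  refine (ENNReal.tsum_le_tsum
    (crude_term hβ hβ2 hν hB hκ hg hℓ hA0 hsup)).trans ?_
  have e : ∀ m : ℕ, Real.exp ((νb + b2 * B) * m) * ((ℓ ^ 3) ^ m / m.factorial) =
      (Real.exp (νb + b2 * B) * ℓ ^ 3) ^ m / m.factorial := by
    intro m
    rw [mul_pow, ← Real.exp_nat_mul, mul_comm (m : ℝ)]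
    ring
  simp only [e]
  have hs : HasSum (fun m : ℕ => (Real.exp (νb + b2 * B) * ℓ ^ 3) ^ m / m.factorial)
      (Real.exp (Real.exp (νb + b2 * B) * ℓ ^ 3)) := by
    have := NormedSpace.expSeries_div_hasSum_exp (Real.exp (νb + b2 * B) * ℓ ^ 3)
    rwa [← Real.exp_eq_exp_ℝ] at this
  rw [← ENNReal.ofReal_tsum_of_nonneg (fun m => by positivity) hs.summable, hs.tsum_eq]

/-- Crude bound of the pressure. -/
theorem crude_Pr {φ0 A j : ℝ → ℝ} {b2 νb S B D Cj β ν c r R : ℝ} {n : ℕ} (hS : 0 ≤ S)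
    (hB : 0 ≤ B) (hD : 8 * S * (1 + Cj) + 8 ≤ D) (hCj : 0 < Cj) (hφm : Measurable φ0)
    (hAm : Measurable A) (hφ0 : ∀ s, 0 ≤ s → 0 ≤ φ0 s) (hA0 : ∀ s, 0 ≤ s → 0 ≤ A s)
    (hj : IsKernel j Cj)
    (hsup : ∀ L : ℝ, 1 ≤ L → ∀ (N : ℕ) (x : Fin N → Pt), (∀ i, x i ∈ cube L) →
          D * (N : ℝ) ^ 2 / L ^ 3 - B * N ≤ Eu (rad φ0) x - 2 * Eu (rad A) x)
    (hβ : 0 ≤ β) (hβ2 : β ≤ b2) (hν : |ν| ≤ νb) (hc : 0 ≤ c) (hcS : c ≤ S)
    (hr : 1 ≤ r) (hn : 4 ≤ n) (hR : (n : ℝ) * r ≤ R) (hA : ∀ s, r ≤ s → A s = 0)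
    (hadm : Adm (fun s => β * (φ0 s - A s - c * JR j R s)) 2) {ρ : ℝ} (hρ : 0 ≤ ρ) :
    ν * ρ + Pr (fun s => β * (φ0 s - A s - c * JR j R s)) ρ ≤ Real.exp (νb + b2 * B) := by
  have hn4 : (4 : ℝ) ≤ n := by exact_mod_cast hn
  have hr0 : 0 < r := by linarith
  have hℓ : 0 < (n : ℝ) * r := by positivity
  have hR0 : 0 < R := by linarith
  have hℓ1 : (1 : ℝ) ≤ ((2 * n : ℕ) : ℝ) * r := by
    push_cast; nlinarith
  have hj0 : 0 ≤ JR j R 0 := by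
    unfold JR
    have := hj.nonneg (0 / R)
    positivity
  set g : ℝ := β * c * (1 + Cj) / (n * r) ^ 3 with hgdef
  have hg0 : 0 ≤ g := by positivity
  have hgm : ∀ m ∈ Finset.range (2 * n), ∀ (N : ℕ) (x : Fin N → Pt),
      β * c * ∑ i, ∑ k, JR j R (dist (x i) (x k)) ≤
        g * ∑ i, ∑ k, same (m * r) ((2 * n : ℕ) * r) (x i) (x k) := by
    intro m _ N x
    have h1 := hj.upper R hR0 (n * r) hℓ hR (m * r) N x
    have h2 : (1 + Cj * (n * r) / R) ≤ 1 + Cj := by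
      have : Cj * (n * r) / R ≤ Cj := by
        rw [div_le_iff₀ hR0]
        exact mul_le_mul_of_nonneg_left hR hCj.le
      linarith
    have h3 : ∑ i, ∑ k, same (m * r) (n * r) (x i) (x k) ≤
        ∑ i, ∑ k, same (m * r) ((2 * n : ℕ) * r) (x i) (x k) := by
      apply Finset.sum_le_sum
      intro i _
      apply Finset.sum_le_sum
      intro k _
      unfold same
      split_ifs with h1 h2
      · exact le_refl _
      · exfalso
        apply h2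
        funext a
        have h := congrFun h1 a
        unfold cell at h ⊢
        have e : ∀ z : ℝ, (z - m * r) / ((2 * n : ℕ) * r) = ((z - m * r) / (n * r)) / (2 : ℕ) := by
          intro z
          push_cast
          field_simp
        rw [e, e, Int.floor_div_natCast, Int.floor_div_natCast, h]
      · norm_num
      · exact le_refl _
    have h4 : 0 ≤ ∑ i, ∑ k, same (m * r) (n * r) (x i) (x k) := by
      apply Finset.sum_nonneg
      intro i _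
      apply Finset.sum_nonneg
      intro k _
      exact same_nonneg _ _ _ _
    calc β * c * ∑ i, ∑ k, JR j R (dist (x i) (x k)) ≤
        β * c * ((1 + Cj * (n * r) / R) * ((n * r) ^ 3)⁻¹ *
          ∑ i, ∑ k, same (m * r) (n * r) (x i) (x k)) :=
          mul_le_mul_of_nonneg_left h1 (by positivity)
      _ ≤ β * c * ((1 + Cj) * ((n * r) ^ 3)⁻¹ *
          ∑ i, ∑ k, same (m * r) ((2 * n : ℕ) * r) (x i) (x k)) := by
          apply mul_le_mul_of_nonneg_left _ (by positivity)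
          apply mul_le_mul _ h3 h4 (by positivity)
          exact mul_le_mul_of_nonneg_right h2 (by positivity)
      _ = _ := by rw [hgdef]; ring
  have hκ : (((2 * n : ℕ) : ℝ) / (((2 * n : ℕ) : ℝ) - 3)) ≤ 2 := by
    push_cast
    rw [div_le_iff₀ (by linarith)]
    linarith
  have hgD : g ≤ 2 * (β * D / (((2 * n : ℕ) : ℝ) * r) ^ 3) := by
    rw [hgdef]
    have e : 2 * (β * D / (((2 * n : ℕ) : ℝ) * r) ^ 3) = β * (D / 4) / (n * r) ^ 3 := by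
      push_cast
      field_simp
      ring
    rw [e]
    apply div_le_div_of_nonneg_right _ (by positivity)
    rw [mul_assoc]
    apply mul_le_mul_of_nonneg_left _ hβ
    have : c * (1 + Cj) ≤ S * (1 + Cj) := mul_le_mul_of_nonneg_right hcS (by linarith)
    nlinarith [mul_nonneg hS hCj.le]
  have hK := crude_Xi (κ := (((2 * n : ℕ) : ℝ) / (((2 * n : ℕ) : ℝ) - 3))) (g := g) (ν := ν)
    (νb := νb) hβ hβ2 hν hB hκ hgD (by positivity) hA0 (hsup _ hℓ1)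
  have := block_bound hφm hAm hβ hc (by omega : 4 ≤ 2 * n) hr0 hφ0 hA0 hA hj0 hgm hK hadm hρ
  refine this.trans (le_of_eq ?_)
  field_simp

end Crest.Agent.Kac
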