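import Crest.Agent.Kac.Block.Est

/-! Block bound, part 5: the fine estimate of the block grand partition function. -/

set_option autoImplicit false
open MeasureTheory Filter Topology
open scoped ENNReal

namespace Crest.Agent.Kac

theorem crude_Z2 {φ0 A : ℝ → ℝ} {β b2 B D ℓ : ℝ} (hβ : 0 ≤ β) (hβ2 : β ≤ b2)
    (hB : 0 ≤ B) (hD : 0 ≤ D) (hℓ : 0 < ℓ)
    (hsup : ∀ (N : ℕ) (x : Fin N → Pt), (∀ i, x i ∈ cube ℓ) →
          D * (N : ℝ) ^ 2 / ℓ ^ 3 - B * N ≤ Eu (rad φ0) x - 2 * Eu (rad A) x) (m : ℕ) :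
    Z (rad (fun s => β * (φ0 s - 2 * A s))) (cube ℓ) m ≤
      ENNReal.ofReal (Real.exp (b2 * B * m + ℓ ^ 3)) := by
  have h1 := Z_le_of_energy (u := rad (fun s => β * (φ0 s - 2 * A s)))
    (u' := fun _ _ => 0) (measurableSet_cube ℓ) (n := m)
    (c := b2 * B * m) (by
      intro x hx
      have h := hsup m x hx
      have h0 : Eu (fun _ _ => 0) x = 0 := by rw [Eu_const]; simp
      have e1 : Eu (rad (fun s => β * (φ0 s - 2 * A s))) x =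
          β * (Eu (rad φ0) x - 2 * Eu (rad A) x) := by
        have : Eu (rad (fun s => β * (φ0 s - 2 * A s))) x =
            β * Eu (rad φ0) x + (-(β * 2)) * Eu (rad A) x := by
          rw [← Eu_smul, ← Eu_smul, ← Eu_add]
          congr 1
          funext a b
          simp only [rad]
          ring
        rw [this]; ring
      rw [h0, e1]
      have h2 := mul_le_mul_of_nonneg_left h hβ
      have h3 : 0 ≤ β * (D * (m : ℝ) ^ 2 / ℓ ^ 3) := by positivity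
      have h4 : β * B * m ≤ b2 * B * m := by
        apply mul_le_mul_of_nonneg_right _ (by positivity)
        exact mul_le_mul_of_nonneg_right hβ2 hB
      have e : β * (D * (m : ℝ) ^ 2 / ℓ ^ 3 - B * m) =
        β * (D * (m : ℝ) ^ 2 / ℓ ^ 3) - β * B * m := by ring
      rw [e] at h2
      linarith)
  refine h1.trans ?_
  rw [Z_free_cube hℓ, ← ENNReal.ofReal_mul (Real.exp_pos _).le]
  apply ENNReal.ofReal_le_ofReal
  rw [Real.exp_add]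
  apply mul_le_mul_of_nonneg_left _ (Real.exp_pos _).le
  exact Real.pow_div_factorial_le_exp _ (by positivity) m

theorem fine_term {φ0 A : ℝ → ℝ} {β η g ν b2 B D ℓ : ℝ} (hφm : Measurable φ0)
    (hAm : Measurable A) (hβ : 0 ≤ β) (hβ2 : β ≤ b2)
    (hB : 0 ≤ B) (hD : 0 ≤ D) (hℓ : 0 < ℓ) (hη0 : 0 < η) (hη1 : η < 1)
    (hsup : ∀ (N : ℕ) (x : Fin N → Pt), (∀ i, x i ∈ cube ℓ) →
          D * (N : ℝ) ^ 2 / ℓ ^ 3 - B * N ≤ Eu (rad φ0) x - 2 * Eu (rad A) x)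
    (hadm : Adm (fun s => β * (φ0 s - A s)) 2) (m : ℕ) :
    ENNReal.ofReal (Real.exp ((ν + g / 2) * m)) *
      Z (rad (fun s => β * φ0 s - β * (1 + η) * A s - g)) (cube ℓ) m ≤
      ENNReal.ofReal (Real.exp (ν * m + g * (m : ℝ) ^ 2 / 2 +
        (1 - η) * Real.log (ZL (fun s => β * (φ0 s - A s)) ℓ m) + η * (b2 * B * m + ℓ ^ 3))) := by
  have hv : Measurable (fun s => β * (φ0 s - A s)) := by fun_prop
  have hv2 : Measurable (fun s => β * (φ0 s - 2 * A s)) := by fun_prop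
  obtain ⟨Bs, hBs⟩ := hadm.stab
  have hz := ZL_pos hv hBs hℓ m
  have hzfin : Z (rad (fun s => β * (φ0 s - A s))) (cube ℓ) m ≠ ∞ := by
    apply ne_of_lt
    apply Z_lt_top hBs (measurableSet_cube ℓ)
    rw [volume_cube hℓ.le]
    exact ENNReal.ofReal_lt_top
  have hze : Z (rad (fun s => β * (φ0 s - A s))) (cube ℓ) m =
      ENNReal.ofReal (Real.exp (Real.log (ZL (fun s => β * (φ0 s - A s)) ℓ m))) := by
    rw [Real.exp_log hz]
    unfold ZL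
    rw [ENNReal.ofReal_toReal hzfin]
  have h1 := Z_le_of_energy (u := rad (fun s => β * φ0 s - β * (1 + η) * A s - g))
    (u' := fun x y => (1 - η) * rad (fun s => β * (φ0 s - A s)) x y +
      η * rad (fun s => β * (φ0 s - 2 * A s)) x y) (measurableSet_cube ℓ) (n := m)
    (c := g * ((m : ℝ) ^ 2 - m) / 2) (by
      intro x _
      rw [Eu_w]
      have e1 : Eu (fun x y => (1 - η) * rad (fun s => β * (φ0 s - A s)) x y +
          η * rad (fun s => β * (φ0 s - 2 * A s)) x y) x =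
          β * Eu (rad φ0) x + (-(β * (1 + η))) * Eu (rad A) x := by
        rw [← Eu_smul, ← Eu_smul, ← Eu_add]
        congr 1
        funext a b
        simp only [rad]
        ring
      rw [e1]
      linarith)
  have h2 := Z_holder (goodPair_rad hv) (goodPair_rad hv2) (cube ℓ) m hη0 hη1
  have h3 := crude_Z2 hβ hβ2 hB hD hℓ hsup m
  calc _ ≤ ENNReal.ofReal (Real.exp ((ν + g / 2) * m)) *
        (ENNReal.ofReal (Real.exp (g * ((m : ℝ) ^ 2 - m) / 2)) *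
        ((Z (rad (fun s => β * (φ0 s - A s))) (cube ℓ) m) ^ (1 - η) *
          (Z (rad (fun s => β * (φ0 s - 2 * A s))) (cube ℓ) m) ^ η)) := by
        gcongr
        refine h1.trans ?_
        gcongr
    _ ≤ ENNReal.ofReal (Real.exp ((ν + g / 2) * m)) *
        (ENNReal.ofReal (Real.exp (g * ((m : ℝ) ^ 2 - m) / 2)) *
        ((ENNReal.ofReal (Real.exp (Real.log (ZL (fun s => β * (φ0 s - A s)) ℓ m)))) ^ (1 - η) *
          (ENNReal.ofReal (Real.exp (b2 * B * m + ℓ ^ 3))) ^ η)) := by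
        rw [hze]
        gcongr
    _ = _ := by
        rw [ENNReal.ofReal_rpow_of_pos (Real.exp_pos _), ENNReal.ofReal_rpow_of_pos (Real.exp_pos _),
          ← Real.exp_mul, ← Real.exp_mul, ← ENNReal.ofReal_mul (Real.exp_pos _).le,
          ← ENNReal.ofReal_mul (Real.exp_pos _).le, ← ENNReal.ofReal_mul (Real.exp_pos _).le,
          ← Real.exp_add, ← Real.exp_add, ← Real.exp_add]
        congr 2
        ring

theorem fine_arith {ν νb β b2 c S Cj ℓ R m ρm η lz P C0 C2 B F : ℝ} (hν : |ν| ≤ νb)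
    (hβ : 0 ≤ β) (hβ2 : β ≤ b2) (hc : 0 ≤ c) (hcS : c ≤ S) (hCj : 0 < Cj) (hℓ : 1 ≤ ℓ)
    (hR : ℓ ≤ R) (hm : 0 ≤ m) (hmM : m ≤ ρm * ℓ ^ 3) (hρm : 0 ≤ ρm) (hη0 : 0 ≤ η)
    (hη1 : η ≤ 1 / 2) (hlz : lz ≤ (ℓ + 2) ^ 3 * P)
    (hC0 : ν * (m / (ℓ + 2) ^ 3) + P ≤ C0) (hC00 : 0 ≤ C0) (hB : 0 ≤ B)
    (hC2 : C2 = b2 * B * ρm + 1)
    (hF : ν * (m / (ℓ + 2) ^ 3) + P + β * c * (m / (ℓ + 2) ^ 3) ^ 2 / 2 ≤ F) (hF0 : 0 ≤ F) :
    ν * m + (β * c * (1 + Cj * ℓ / R) * (ℓ ^ 3)⁻¹) * m ^ 2 / 2 + (1 - η) * lz +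
      η * (b2 * B * m + ℓ ^ 3) ≤
      ℓ ^ 3 * F + (26 * C0 + 364 * (b2 * S * ρm ^ 2)) * ℓ ^ 2 +
        (b2 * S * Cj * ρm ^ 2 / 2) * (ℓ / R) * ℓ ^ 3 +
        η * (C2 + 2 * (νb * ρm + b2 * S * (1 + Cj) * ρm ^ 2 / 2 + C2)) * ℓ ^ 3 := by
  have hℓ0 : 0 < ℓ := by linarith
  have hR0 : 0 < R := by linarith
  have hb2 : 0 ≤ b2 := hβ.trans hβ2
  have hS : 0 ≤ S := hc.trans hcS
  have hνb : 0 ≤ νb := (abs_nonneg ν).trans hν
  have hℓ3 : 0 < ℓ ^ 3 := by positivity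
  have hℓR : ℓ / R ≤ 1 := by rw [div_le_one hR0]; exact hR
  have hℓR0 : 0 ≤ ℓ / R := by positivity
  have hβc : β * c ≤ b2 * S := mul_le_mul hβ2 hcS hc hb2
  have hβc0 : 0 ≤ β * c := by positivity
  have hbS : 0 ≤ b2 * S := by positivity
  have hC20 : 0 ≤ C2 := by rw [hC2]; positivity
  -- bounds on the quadratic term
  have hq : m ^ 2 * (ℓ ^ 3)⁻¹ ≤ ρm ^ 2 * ℓ ^ 3 := by
    rw [← div_eq_mul_inv, div_le_iff₀ hℓ3]
    calc m ^ 2 ≤ (ρm * ℓ ^ 3) ^ 2 := pow_le_pow_left₀ hm hmM 2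
      _ = _ := by ring
  have hq0 : 0 ≤ m ^ 2 * (ℓ ^ 3)⁻¹ := by positivity
  have hη2 : η * (b2 * B * m + ℓ ^ 3) ≤ η * C2 * ℓ ^ 3 := by
    rw [mul_assoc η C2]
    apply mul_le_mul_of_nonneg_left _ hη0
    rw [hC2]
    have : b2 * B * m ≤ b2 * B * (ρm * ℓ ^ 3) := mul_le_mul_of_nonneg_left hmM (by positivity)
    linarith
  have hνm : ν * m ≤ νb * (ρm * ℓ ^ 3) := by
    calc ν * m ≤ νb * m := mul_le_mul_of_nonneg_right ((le_abs_self ν).trans hν) hm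
      _ ≤ _ := mul_le_mul_of_nonneg_left hmM hνb
  have e1 : (β * c * (1 + Cj * ℓ / R) * (ℓ ^ 3)⁻¹) * m ^ 2 / 2 =
      (β * c) / 2 * (m ^ 2 * (ℓ ^ 3)⁻¹) + (β * c) / 2 * (Cj * (ℓ / R)) * (m ^ 2 * (ℓ ^ 3)⁻¹) := by
    ring
  have hX : (β * c) / 2 * (Cj * (ℓ / R)) * (m ^ 2 * (ℓ ^ 3)⁻¹) ≤
      (b2 * S * Cj * ρm ^ 2 / 2) * (ℓ / R) * ℓ ^ 3 := by
    calc (β * c) / 2 * (Cj * (ℓ / R)) * (m ^ 2 * (ℓ ^ 3)⁻¹) ≤
        (b2 * S) / 2 * (Cj * (ℓ / R)) * (ρm ^ 2 * ℓ ^ 3) := by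
          apply mul_le_mul _ hq hq0 (by positivity)
          apply mul_le_mul_of_nonneg_right _ (by positivity)
          linarith
      _ = _ := by ring
  rcases le_or_gt (-(2 * (νb * ρm + b2 * S * (1 + Cj) * ρm ^ 2 / 2 + C2)) * ℓ ^ 3) lz with h | h
  · have h1 : (1 - η) * lz ≤ lz +
        η * (2 * (νb * ρm + b2 * S * (1 + Cj) * ρm ^ 2 / 2 + C2)) * ℓ ^ 3 := by
      have h1 := mul_le_mul_of_nonneg_left h hη0
      linarith
    set q : ℝ := m / (ℓ + 2) ^ 3 with hqdef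
    have hmq : m = q * (ℓ + 2) ^ 3 := by rw [hqdef]; field_simp
    have hq' : q ≤ ρm := by
      rw [hqdef, div_le_iff₀ (by positivity)]
      refine hmM.trans (mul_le_mul_of_nonneg_left ?_ hρm)
      gcongr
      linarith
    have hqn : 0 ≤ q := by rw [hqdef]; positivity
    have h2 : ν * m + lz ≤ ℓ ^ 3 * (ν * q + P) + 26 * C0 * ℓ ^ 2 := by
      have e2 : ν * m + (ℓ + 2) ^ 3 * P = ℓ ^ 3 * (ν * q + P) +
          (6 * ℓ ^ 2 + 12 * ℓ + 8) * (ν * q + P) := by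
        rw [hmq]; ring
      have h3 : (6 * ℓ ^ 2 + 12 * ℓ + 8) * (ν * q + P) ≤ (6 * ℓ ^ 2 + 12 * ℓ + 8) * C0 :=
        mul_le_mul_of_nonneg_left hC0 (by positivity)
      have h4 : (6 * ℓ ^ 2 + 12 * ℓ + 8) * C0 ≤ 26 * ℓ ^ 2 * C0 := by
        apply mul_le_mul_of_nonneg_right _ hC00
        nlinarith
      linarith
    have h5 : (β * c) / 2 * (m ^ 2 * (ℓ ^ 3)⁻¹) ≤
        ℓ ^ 3 * (β * c * q ^ 2 / 2) + 364 * (b2 * S * ρm ^ 2) * ℓ ^ 2 := by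
      have e3 : m ^ 2 * (ℓ ^ 3)⁻¹ = q ^ 2 * ℓ ^ 3 +
          q ^ 2 * (((ℓ + 2) ^ 6 - ℓ ^ 6) * (ℓ ^ 3)⁻¹) := by
        rw [hmq]; field_simp; ring
      have h6 : ((ℓ + 2) ^ 6 - ℓ ^ 6) * (ℓ ^ 3)⁻¹ ≤ 728 * ℓ ^ 2 := by
        rw [← div_eq_mul_inv, div_le_iff₀ hℓ3]
        have a1 : ℓ ^ 4 ≤ ℓ ^ 5 := pow_le_pow_right₀ hℓ (by norm_num)
        have a2 : ℓ ^ 3 ≤ ℓ ^ 5 := pow_le_pow_right₀ hℓ (by norm_num)
        have a3 : ℓ ^ 2 ≤ ℓ ^ 5 := pow_le_pow_right₀ hℓ (by norm_num)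
        have a4 : ℓ ≤ ℓ ^ 5 := le_self_pow₀ hℓ (by norm_num)
        have a5 : 1 ≤ ℓ ^ 5 := one_le_pow₀ hℓ
        ring_nf
        linarith
      have h7 : 0 ≤ ((ℓ + 2) ^ 6 - ℓ ^ 6) * (ℓ ^ 3)⁻¹ := by
        apply mul_nonneg _ (by positivity)
        have : ℓ ^ 6 ≤ (ℓ + 2) ^ 6 := by gcongr; linarith
        linarith
      have h8 : q ^ 2 * (((ℓ + 2) ^ 6 - ℓ ^ 6) * (ℓ ^ 3)⁻¹) ≤ ρm ^ 2 * (728 * ℓ ^ 2) :=
        mul_le_mul (pow_le_pow_left₀ hqn hq' 2) h6 h7 (by positivity)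
      rw [e3]
      have h9 : (β * c) / 2 * (q ^ 2 * (((ℓ + 2) ^ 6 - ℓ ^ 6) * (ℓ ^ 3)⁻¹)) ≤
          (b2 * S) / 2 * (ρm ^ 2 * (728 * ℓ ^ 2)) := by
        apply mul_le_mul (by linarith) h8 _ (by positivity)
        exact mul_nonneg (by positivity) h7
      rw [mul_add]
      linarith
    have h10 := mul_le_mul_of_nonneg_left hF hℓ3.le
    rw [e1]
    linarith
  · have h1 : (1 - η) * lz ≤ lz / 2 := by
      have : lz ≤ 0 := by
        have : 0 ≤ 2 * (νb * ρm + b2 * S * (1 + Cj) * ρm ^ 2 / 2 + C2) * ℓ ^ 3 := by positivity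
        linarith
      have h0 : 0 ≤ (1 / 2 - η) * (-lz) := mul_nonneg (by linarith) (by linarith)
      linarith
    have h2 : (β * c * (1 + Cj * ℓ / R) * (ℓ ^ 3)⁻¹) * m ^ 2 / 2 ≤
        b2 * S * (1 + Cj) * ρm ^ 2 / 2 * ℓ ^ 3 := by
      have e2 : (β * c * (1 + Cj * ℓ / R) * (ℓ ^ 3)⁻¹) * m ^ 2 / 2 =
        (β * c) * (1 + Cj * (ℓ / R)) / 2 * (m ^ 2 * (ℓ ^ 3)⁻¹) := by ring
      rw [e2]
      calc _ ≤ (b2 * S) * (1 + Cj) / 2 * (ρm ^ 2 * ℓ ^ 3) := by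
            apply mul_le_mul _ hq hq0 (by positivity)
            have : 1 + Cj * (ℓ / R) ≤ 1 + Cj := by
              have := mul_le_mul_of_nonneg_left hℓR hCj.le
              linarith
            have h3 : β * c * (1 + Cj * (ℓ / R)) ≤ b2 * S * (1 + Cj) :=
              mul_le_mul hβc this (by positivity) hbS
            linarith
        _ = _ := by ring
    have h3 : η * C2 * ℓ ^ 3 ≤ C2 * ℓ ^ 3 := by
      have : η * (C2 * ℓ ^ 3) ≤ 1 * (C2 * ℓ ^ 3) :=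
        mul_le_mul_of_nonneg_right (by linarith) (by positivity)
      linarith
    have h4 : 0 ≤ ℓ ^ 3 * F + (26 * C0 + 364 * (b2 * S * ρm ^ 2)) * ℓ ^ 2 +
        (b2 * S * Cj * ρm ^ 2 / 2) * (ℓ / R) * ℓ ^ 3 +
        η * (C2 + 2 * (νb * ρm + b2 * S * (1 + Cj) * ρm ^ 2 / 2 + C2)) * ℓ ^ 3 := by positivity
    linarith

end Crest.Agent.Kac
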