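import Crest.Agent.Kac.Block.Cells

/-! Block bound, part 3: the bound of the pressure by the grand partition function of a block. -/

set_option autoImplicit false
open MeasureTheory Filter Topology
open scoped ENNReal

namespace Crest.Agent.Kac

theorem Eu_eq_sub {ι : Type} [Fintype ι] (u : Pt → Pt → ℝ) (x : ι → Pt) :
    Eu u x = 1 / 2 * (∑ i, ∑ j, u (x i) (x j) - ∑ i, u (x i) (x i)) := by
  classical
  rw [Eu_eq]
  congr 1
  rw [← Finset.sum_sub_distrib]
  apply Finset.sum_congr rfl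
  intro i _
  rw [eq_sub_iff_add_eq]
  have : u (x i) (x i) = ∑ j, if i = j then u (x i) (x j) else 0 := by simp
  rw [this, ← Finset.sum_add_distrib]
  apply Finset.sum_congr rfl
  intro j _
  by_cases h : i = j <;> simp [h]

/-- The energy of a potential without long range part, restricted to the cells of the `m`-th
grid. -/
noncomputable def blockPair (φ0 A : ℝ → ℝ) (β g r : ℝ) (n m : ℕ) : Pt → Pt → ℝ :=
  fun a b => same (m * r) (n * r) a b *
    rad (fun s => β * φ0 s - β * (n / (n - 3)) * A s - g) a b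

theorem block_energy {φ0 A j : ℝ → ℝ} {β c g r R : ℝ} {n : ℕ} (hβ : 0 ≤ β) (hc : 0 ≤ c)
    (hn : 4 ≤ n) (hr : 0 < r) (hφ0 : ∀ s, 0 ≤ s → 0 ≤ φ0 s) (hA0 : ∀ s, 0 ≤ s → 0 ≤ A s)
    (hA : ∀ s, r ≤ s → A s = 0) (hj0 : 0 ≤ JR j R 0)
    (hg : ∀ m ∈ Finset.range n, ∀ (N : ℕ) (x : Fin N → Pt),
      β * c * ∑ i, ∑ k, JR j R (dist (x i) (x k)) ≤
        g * ∑ i, ∑ k, same (m * r) (n * r) (x i) (x k)) {N : ℕ} (x : Fin N → Pt) :
    ∃ m ∈ Finset.range n, -(Eu (rad (fun s => β * (φ0 s - A s - c * JR j R s))) x) ≤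
      -(Eu (blockPair φ0 A β g r n m) x) + g / 2 * N := by
  classical
  obtain ⟨m, hm, hmA⟩ := exists_shift (by omega : 0 < n) hr hA0 hA x
  refine ⟨m, hm, ?_⟩
  have e1 : Eu (rad (fun s => β * (φ0 s - A s - c * JR j R s))) x =
      β * Eu (rad φ0) x + (-β) * Eu (rad A) x + (-(β * c)) * Eu (rad (JR j R)) x := by
    rw [← Eu_smul, ← Eu_smul, ← Eu_smul, ← Eu_add, ← Eu_add]
    congr 1
    funext a b
    simp only [rad]
    ring
  have e2 : Eu (blockPair φ0 A β g r n m) x =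
      β * Eu (fun a b => same (m * r) (n * r) a b * rad φ0 a b) x +
      (-(β * (n / (n - 3)))) * Eu (fun a b => same (m * r) (n * r) a b * rad A a b) x +
      (-g) * Eu (same (m * r) (n * r)) x := by
    rw [← Eu_smul, ← Eu_smul, ← Eu_smul, ← Eu_add, ← Eu_add]
    congr 1
    funext a b
    simp only [rad, blockPair]
    ring
  have h1 : Eu (fun a b => same (m * r) (n * r) a b * rad φ0 a b) x ≤ Eu (rad φ0) x := by
    apply Eu_mono
    intro i k _
    have h1 := same_nonneg (m * r) (n * r) (x i) (x k)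
    have h2 := same_le_one (m * r) (n * r) (x i) (x k)
    have h3 : 0 ≤ rad φ0 (x i) (x k) := hφ0 _ dist_nonneg
    nlinarith
  have hn3 : (0 : ℝ) < n - 3 := by
    have : (4 : ℝ) ≤ n := by exact_mod_cast hn
    linarith
  have h2 : Eu (rad A) x ≤
      (n / (n - 3)) * Eu (fun a b => same (m * r) (n * r) a b * rad A a b) x := by
    rw [div_mul_eq_mul_div, le_div_iff₀ hn3]
    linarith
  have h3 : β * c * Eu (rad (JR j R)) x ≤ g * Eu (same (m * r) (n * r)) x + g / 2 * N := by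
    rw [Eu_eq_sub, Eu_eq_sub]
    have h := hg m hm N x
    have hs : ∑ i, same (m * r) (n * r) (x i) (x i) = N := by
      simp [same_self]
    have hJ : 0 ≤ ∑ i, rad (JR j R) (x i) (x i) := by
      apply Finset.sum_nonneg
      intro i _
      simpa [rad] using hj0
    have hβc : 0 ≤ β * c := mul_nonneg hβ hc
    have h' := mul_nonneg hβc hJ
    rw [hs]
    simp only [rad] at *
    linarith
  have h4 := mul_le_mul_of_nonneg_left h1 hβ
  have h5 := mul_le_mul_of_nonneg_left h2 hβ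
  rw [e1, e2]
  linarith

theorem goodPair_blockPair {φ0 A : ℝ → ℝ} (hφ : Measurable φ0) (hA : Measurable A)
    (β g r : ℝ) (n m : ℕ) : GoodPair (blockPair φ0 A β g r n m) := by
  apply goodPair_same_mul
  fun_prop

theorem block_Z {φ0 A j : ℝ → ℝ} {β c g r R : ℝ} {n : ℕ} (hφm : Measurable φ0)
    (hAm : Measurable A) (hβ : 0 ≤ β) (hc : 0 ≤ c)
    (hn : 4 ≤ n) (hr : 0 < r) (hφ0 : ∀ s, 0 ≤ s → 0 ≤ φ0 s) (hA0 : ∀ s, 0 ≤ s → 0 ≤ A s)
    (hA : ∀ s, r ≤ s → A s = 0) (hj0 : 0 ≤ JR j R 0)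
    (hg : ∀ m ∈ Finset.range n, ∀ (N : ℕ) (x : Fin N → Pt),
      β * c * ∑ i, ∑ k, JR j R (dist (x i) (x k)) ≤
        g * ∑ i, ∑ k, same (m * r) (n * r) (x i) (x k)) (Λ : Set Pt) (N : ℕ) :
    Z (rad (fun s => β * (φ0 s - A s - c * JR j R s))) Λ N ≤
      ∑ m ∈ Finset.range n, ENNReal.ofReal (Real.exp (g / 2 * N)) *
        Z (blockPair φ0 A β g r n m) Λ N := by
  classical
  unfold Z
  have h1 : ∀ m ∈ Finset.range n, ENNReal.ofReal (Real.exp (g / 2 * N)) *
      ((N.factorial : ℝ≥0∞)⁻¹ * ∫⁻ x in (box Λ : Set (Fin N → Pt)),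
        bw (blockPair φ0 A β g r n m) x) =
      (N.factorial : ℝ≥0∞)⁻¹ * ∫⁻ x in (box Λ : Set (Fin N → Pt)),
        ENNReal.ofReal (Real.exp (g / 2 * N)) * bw (blockPair φ0 A β g r n m) x := by
    intro m _
    rw [lintegral_const_mul' _ _ ENNReal.ofReal_ne_top]
    ring
  rw [Finset.sum_congr rfl h1, ← Finset.mul_sum, ← lintegral_finsetSum]
  · gcongr with x
    obtain ⟨m, hm, h⟩ := block_energy hβ hc hn hr hφ0 hA0 hA hj0 hg x
    refine le_trans ?_ (Finset.single_le_sum (f := fun m => ENNReal.ofReal (Real.exp (g / 2 * N)) *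
      bw (blockPair φ0 A β g r n m) x) (fun _ _ => zero_le) hm)
    unfold bw
    rw [← ENNReal.ofReal_mul (Real.exp_pos _).le, ← Real.exp_add]
    apply ENNReal.ofReal_le_ofReal
    apply Real.exp_le_exp.mpr
    linarith
  · intro m _
    exact (measurable_bw (goodPair_blockPair hφm hAm β g r n m)).const_mul _

theorem block_log {φ0 A j : ℝ → ℝ} {β c g r R ν K : ℝ} {n : ℕ} (hφm : Measurable φ0)
    (hAm : Measurable A) (hβ : 0 ≤ β) (hc : 0 ≤ c)
    (hn : 4 ≤ n) (hr : 0 < r) (hφ0 : ∀ s, 0 ≤ s → 0 ≤ φ0 s) (hA0 : ∀ s, 0 ≤ s → 0 ≤ A s)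
    (hA : ∀ s, r ≤ s → A s = 0) (hj0 : 0 ≤ JR j R 0)
    (hg : ∀ m ∈ Finset.range n, ∀ (N : ℕ) (x : Fin N → Pt),
      β * c * ∑ i, ∑ k, JR j R (dist (x i) (x k)) ≤
        g * ∑ i, ∑ k, same (m * r) (n * r) (x i) (x k))
    (hK : Xi (rad (fun s => β * φ0 s - β * (n / (n - 3)) * A s - g)) (ν + g / 2) (cube (n * r)) ≤
      ENNReal.ofReal (Real.exp K))
    (hadm : Adm (fun s => β * (φ0 s - A s - c * JR j R s)) 2) {L : ℝ} (hL : 0 < L) (N : ℕ) :
    Real.log (ZL (fun s => β * (φ0 s - A s - c * JR j R s)) L N) ≤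
      Real.log n + K * (L / (n * r) + 2) ^ 3 - ν * N := by
  have hn0 : (0 : ℝ) < n := by
    have : 0 < n := by omega
    exact_mod_cast this
  have hℓ : 0 < (n : ℝ) * r := mul_pos hn0 hr
  have hK0 : 0 ≤ K := by
    have h1 := (one_le_Xi _ _ _).trans hK
    rw [ENNReal.one_le_ofReal] at h1
    exact Real.one_le_exp_iff.mp h1
  have hw : Measurable (fun s => β * φ0 s - β * (n / (n - 3)) * A s - g) := by fun_prop
  have h1 : ENNReal.ofReal (Real.exp (ν * N)) *
      Z (rad (fun s => β * (φ0 s - A s - c * JR j R s))) (cube L) N ≤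
      ENNReal.ofReal (n * Real.exp (K * (L / (n * r) + 2) ^ 3)) := by
    calc _ ≤ ENNReal.ofReal (Real.exp (ν * N)) *
          ∑ m ∈ Finset.range n, ENNReal.ofReal (Real.exp (g / 2 * N)) *
            Z (blockPair φ0 A β g r n m) (cube L) N := by
          gcongr
          exact block_Z hφm hAm hβ hc hn hr hφ0 hA0 hA hj0 hg (cube L) N
      _ = ∑ m ∈ Finset.range n, ENNReal.ofReal (Real.exp ((ν + g / 2) * N)) *
            Z (blockPair φ0 A β g r n m) (cube L) N := by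
          rw [Finset.mul_sum]
          apply Finset.sum_congr rfl
          intro m _
          rw [← mul_assoc, ← ENNReal.ofReal_mul (Real.exp_pos _).le, ← Real.exp_add]
          congr 3
          ring
      _ ≤ ∑ m ∈ Finset.range n, ENNReal.ofReal (Real.exp (K * (L / (n * r) + 2) ^ 3)) := by
          apply Finset.sum_le_sum
          intro m _
          refine (ENNReal.le_tsum (f := fun N : ℕ => ENNReal.ofReal (Real.exp ((ν + g / 2) * N)) *
            Z (blockPair φ0 A β g r n m) (cube L) N) N).trans ?_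
          refine (Xi_cells hw (t := m * r) hℓ (ν + g / 2) L).trans ?_
          refine (pow_le_pow_left' hK _).trans ?_
          rw [← ENNReal.ofReal_pow (Real.exp_pos _).le, ← Real.exp_nat_mul]
          apply ENNReal.ofReal_le_ofReal
          apply Real.exp_le_exp.mpr
          rw [mul_comm]
          exact mul_le_mul_of_nonneg_left (card_cellIdx hℓ hL.le) hK0
      _ = _ := by
          rw [Finset.sum_const, Finset.card_range, nsmul_eq_mul,
            ENNReal.ofReal_mul hn0.le, ENNReal.ofReal_natCast]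
  obtain ⟨B, hB⟩ := hadm.stab
  have hZpos := ZL_pos hadm.meas hB hL N
  have h2 : Real.exp (ν * N) * ZL (fun s => β * (φ0 s - A s - c * JR j R s)) L N ≤
      n * Real.exp (K * (L / (n * r) + 2) ^ 3) := by
    have := ENNReal.toReal_mono ENNReal.ofReal_ne_top h1
    rw [ENNReal.toReal_mul, ENNReal.toReal_ofReal (Real.exp_pos _).le,
      ENNReal.toReal_ofReal (by positivity)] at this
    exact this
  have h3 := Real.log_le_log (by positivity) h2
  rw [Real.log_mul (Real.exp_pos _).ne' hZpos.ne', Real.log_mul hn0.ne' (Real.exp_pos _).ne',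
    Real.log_exp, Real.log_exp] at h3
  linarith

theorem tendsto_floor_div {ρ : ℝ} (hρ : 0 ≤ ρ) :
    Tendsto (fun L : ℝ => (⌊ρ * L ^ 3⌋₊ : ℝ) / L ^ 3) atTop (𝓝 ρ) := by
  have h1 : Tendsto (fun L : ℝ => L ^ 3) atTop atTop := tendsto_pow_atTop (by norm_num)
  have h2 := (tendsto_nat_floor_mul_div_atTop (R := ℝ) hρ).comp h1
  exact h2

theorem block_bound {φ0 A j : ℝ → ℝ} {β c g r R ν K : ℝ} {n : ℕ} (hφm : Measurable φ0)
    (hAm : Measurable A) (hβ : 0 ≤ β) (hc : 0 ≤ c)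
    (hn : 4 ≤ n) (hr : 0 < r) (hφ0 : ∀ s, 0 ≤ s → 0 ≤ φ0 s) (hA0 : ∀ s, 0 ≤ s → 0 ≤ A s)
    (hA : ∀ s, r ≤ s → A s = 0) (hj0 : 0 ≤ JR j R 0)
    (hg : ∀ m ∈ Finset.range n, ∀ (N : ℕ) (x : Fin N → Pt),
      β * c * ∑ i, ∑ k, JR j R (dist (x i) (x k)) ≤
        g * ∑ i, ∑ k, same (m * r) (n * r) (x i) (x k))
    (hK : Xi (rad (fun s => β * φ0 s - β * (n / (n - 3)) * A s - g)) (ν + g / 2) (cube (n * r)) ≤
      ENNReal.ofReal (Real.exp K))
    (hadm : Adm (fun s => β * (φ0 s - A s - c * JR j R s)) 2) {ρ : ℝ} (hρ : 0 ≤ ρ) :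
    ν * ρ + Pr (fun s => β * (φ0 s - A s - c * JR j R s)) ρ ≤ K / (n * r) ^ 3 := by
  have hn0 : (0 : ℝ) < n := by
    have : 0 < n := by omega
    exact_mod_cast this
  have hℓ : 0 < (n : ℝ) * r := mul_pos hn0 hr
  have h1 := Pr_tendsto (by norm_num : (0 : ℝ) < 2) hadm hρ
  have hinv : Tendsto (fun L : ℝ => L⁻¹) atTop (𝓝 0) := tendsto_inv_atTop_zero
  have h2 : Tendsto (fun L : ℝ => Real.log n * (L⁻¹) ^ 3 + K * ((n * r)⁻¹ + 2 * L⁻¹) ^ 3 -
      ν * ((⌊ρ * L ^ 3⌋₊ : ℝ) / L ^ 3)) atTop (𝓝 (K / (n * r) ^ 3 - ν * ρ)) := by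
    have e : K / (n * r) ^ 3 - ν * ρ =
        Real.log n * 0 ^ 3 + K * ((n * r)⁻¹ + 2 * 0) ^ 3 - ν * ρ := by
      rw [div_eq_mul_inv, ← inv_pow]
      ring
    rw [e]
    apply Tendsto.sub
    · apply Tendsto.add
      · exact (hinv.pow 3).const_mul _
      · exact ((((hinv.const_mul 2).const_add _).pow 3).const_mul _)
    · exact (tendsto_floor_div hρ).const_mul _
  have h3 : Pr (fun s => β * (φ0 s - A s - c * JR j R s)) ρ ≤ K / (n * r) ^ 3 - ν * ρ := by
    apply le_of_tendsto_of_tendsto h1 h2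
    filter_upwards [eventually_gt_atTop 0] with L hL
    have h := block_log hφm hAm hβ hc hn hr hφ0 hA0 hA hj0 hg hK hadm hL ⌊ρ * L ^ 3⌋₊
    have hL3 : 0 < L ^ 3 := by positivity
    have e : (1 / L ^ 3) * (Real.log n + K * (L / (n * r) + 2) ^ 3 - ν * (⌊ρ * L ^ 3⌋₊ : ℝ)) =
        Real.log n * (L⁻¹) ^ 3 + K * ((n * r)⁻¹ + 2 * L⁻¹) ^ 3 -
          ν * ((⌊ρ * L ^ 3⌋₊ : ℝ) / L ^ 3) := by
      have : L / (n * r) + 2 = L * ((n * r)⁻¹ + 2 * L⁻¹) := by field_simp
      rw [this]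
      field_simp
    rw [← e]
    exact mul_le_mul_of_nonneg_left h (by positivity)
  linarith

end Crest.Agent.Kac
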