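import Crest.Agent.Kac.Block.Fine

/-! Block bound, part 6: summation over the number of particles in the block. -/

set_option autoImplicit false
open MeasureTheory Filter Topology
open scoped ENNReal

namespace Crest.Agent.Kac

/-- Tail terms. -/
theorem tail_term {C1 ℓ : ℝ} (hℓ : 0 < ℓ) {m : ℕ} (hm : 0 < m)
    (h : 2 * Real.exp (C1 + 1) * ℓ ^ 3 ≤ m) :
    Real.exp (C1 * m) * ((ℓ ^ 3) ^ m / m.factorial) ≤ (1 / 2) ^ m := by
  have hm0 : (0 : ℝ) < m := by exact_mod_cast hm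
  have h1 : (m : ℝ) ^ m / m.factorial ≤ Real.exp m :=
    Real.pow_div_factorial_le_exp _ hm0.le m
  have h2 : (1 : ℝ) / m.factorial ≤ (Real.exp 1 / m) ^ m := by
    rw [div_pow, ← Real.exp_nat_mul, mul_one]
    rw [div_le_iff₀ (by positivity)] at h1
    rw [div_le_div_iff₀ (by positivity) (by positivity)]
    linarith
  calc Real.exp (C1 * m) * ((ℓ ^ 3) ^ m / m.factorial) =
      (Real.exp C1 * ℓ ^ 3) ^ m * (1 / m.factorial) := by
        rw [mul_pow, ← Real.exp_nat_mul, mul_comm (m : ℝ)]; ring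
    _ ≤ (Real.exp C1 * ℓ ^ 3) ^ m * (Real.exp 1 / m) ^ m :=
        mul_le_mul_of_nonneg_left h2 (by positivity)
    _ = (Real.exp (C1 + 1) * ℓ ^ 3 / m) ^ m := by
        rw [← mul_pow, Real.exp_add]; congr 1; ring
    _ ≤ (1 / 2) ^ m := by
        apply pow_le_pow_left₀ (by positivity)
        rw [div_le_div_iff₀ hm0 (by norm_num)]
        linarith

/-- A sum with finitely many bounded terms and a geometric tail. -/
theorem tsum_bound {a : ℕ → ℝ≥0∞} {M : ℕ} {Y : ℝ} (hY : 0 ≤ Y)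
    (h1 : ∀ m ≤ M, a m ≤ ENNReal.ofReal (Real.exp Y))
    (h2 : ∀ m, M < m → a m ≤ ENNReal.ofReal ((1 / 2) ^ m)) :
    ∑' m, a m ≤ ENNReal.ofReal ((M + 3) * Real.exp Y) := by
  have hle : ∀ m, a m ≤ (if m ∈ Finset.range (M + 1) then ENNReal.ofReal (Real.exp Y) else 0) +
      ENNReal.ofReal ((1 / 2) ^ m) := by
    intro m
    by_cases hm : m ≤ M
    · rw [if_pos (by simpa [Nat.lt_succ_iff] using hm)]
      exact (h1 m hm).trans le_self_add
    · exact (h2 m (not_le.mp hm)).trans le_add_self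
  refine (ENNReal.tsum_le_tsum hle).trans ?_
  rw [ENNReal.tsum_add, tsum_eq_sum (s := Finset.range (M + 1)) (by
    intro m hm
    rw [if_neg hm]), ← ENNReal.ofReal_tsum_of_nonneg (fun m => by positivity)
      summable_geometric_two, tsum_geometric_two]
  rw [Finset.sum_congr rfl (fun m hm => if_pos hm), Finset.sum_const, Finset.card_range,
    nsmul_eq_mul, ← ENNReal.ofReal_natCast, ← ENNReal.ofReal_mul (by positivity),
    ← ENNReal.ofReal_add (by positivity) (by norm_num)]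
  apply ENNReal.ofReal_le_ofReal
  push_cast
  have := Real.one_le_exp hY
  linarith

theorem log_bound {ρm ℓ : ℝ} (hρm : 0 ≤ ρm) (hℓ : 1 ≤ ℓ) {M : ℕ} (hM : (M : ℝ) ≤ ρm * ℓ ^ 3) :
    Real.log (M + 3) ≤ (ρm + 6) * ℓ ^ 2 := by
  have h3 : (1 : ℝ) ≤ ℓ ^ 3 := one_le_pow₀ hℓ
  have h1 : (M : ℝ) + 3 ≤ (ρm + 3) * ℓ ^ 3 := by linarith
  have h2 := Real.log_le_log (by positivity) h1
  rw [Real.log_mul (by positivity) (by positivity), Real.log_pow] at h2
  have h4 := Real.log_le_self (show (0 : ℝ) ≤ ρm + 3 by linarith)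
  have h5 := Real.log_le_self (show (0 : ℝ) ≤ ℓ by linarith)
  push_cast at h2
  have h6 : (1 : ℝ) ≤ ℓ ^ 2 := one_le_pow₀ hℓ
  have h7 : ℓ ≤ ℓ ^ 2 := le_self_pow₀ hℓ (by norm_num)
  have h8 : ρm * 1 ≤ ρm * ℓ ^ 2 := mul_le_mul_of_nonneg_left h6 hρm
  linarith

end Crest.Agent.Kac
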